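import Vale.Agent.P209.H687.Defs

/-!
# The middle chart of model M, first part: the top side with a straight slot (`preT`)
-/

namespace Vale.Agent.P209.H39

open Vale.Agent.P209 H684 H578 H721 H687
open Vale.Agent.P209.Strong hiding chi
open scoped ContDiff
open Complex

section general

variable {E : Type*} [NormedAddCommGroup E] [NormedSpace ℝ E]

theorem reim_hasFDerivAt {a b : E → ℝ} {a' b' : E →L[ℝ] ℝ} {x : E}
    (ha : HasFDerivAt a a' x) (hb : HasFDerivAt b b' x) :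
    HasFDerivAt (fun y => ((a y : ℝ) : ℂ) + ((b y : ℝ) : ℂ) * I)
      (ofRealCLM.comp a' + (ofRealCLM.comp b').smulRight I) x := by
  have h2 : HasFDerivAt (fun y => ((a y : ℝ) : ℂ)) (ofRealCLM.comp a') x :=
    ofRealCLM.hasFDerivAt.comp x ha
  have h3 : HasFDerivAt (fun y => ((b y : ℝ) : ℂ)) (ofRealCLM.comp b') x :=
    ofRealCLM.hasFDerivAt.comp x hb
  refine (h2.add (h3.mul_const I)).congr_fderiv ?_
  ext v
  simp
  ring

theorem om1_reim {a b : E → ℝ} {a' b' : E →L[ℝ] ℝ} {x : E}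
    (ha : HasFDerivAt a a' x) (hb : HasFDerivAt b b' x) (v w : E) :
    om1 (fderiv ℝ (fun y => ((a y : ℝ) : ℂ) + ((b y : ℝ) : ℂ) * I) x v)
      (fderiv ℝ (fun y => ((a y : ℝ) : ℂ) + ((b y : ℝ) : ℂ) * I) x w) = wd a' b' v w := by
  rw [(reim_hasFDerivAt ha hb).fderiv]
  unfold om1 wd
  simp
  ring

theorem reim_contDiffAt {a b : E → ℝ} {x : E} (ha : ContDiffAt ℝ ∞ a x)
    (hb : ContDiffAt ℝ ∞ b x) :
    ContDiffAt ℝ ∞ (fun y => ((a y : ℝ) : ℂ) + ((b y : ℝ) : ℂ) * I) x :=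
  (ofRealCLM.contDiff.contDiffAt.comp x ha).add
    ((ofRealCLM.contDiff.contDiffAt.comp x hb).mul contDiffAt_const)

end general

theorem omega3 (x y : Fin 3 → ℂ) : omega x y = om1 (x 0) (y 0) + om1 (x 1) (y 1) +
    om1 (x 2) (y 2) := by
  unfold omega
  rw [Fin.sum_univ_three]
  rfl

/-- smoothness of a map with three given slots -/
theorem cda3 {E : Type*} [NormedAddCommGroup E] [NormedSpace ℝ E] {a b d : E → ℂ} {x : E}
    (ha : ContDiffAt ℝ ∞ a x) (hb : ContDiffAt ℝ ∞ b x) (hd : ContDiffAt ℝ ∞ d x) :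
    ContDiffAt ℝ ∞ (fun y => ![a y, b y, d y]) x := by
  rw [contDiffAt_pi]
  intro i
  fin_cases i
  · exact ha
  · exact hb
  · exact hd

/-- the derivative of a map with three given slots -/
theorem fd3 {E : Type*} [NormedAddCommGroup E] [NormedSpace ℝ E] {a b d : E → ℂ} {x : E}
    (ha : DifferentiableAt ℝ a x) (hb : DifferentiableAt ℝ b x) (hd : DifferentiableAt ℝ d x)
    (v : E) : fderiv ℝ (fun y => ![a y, b y, d y]) x v =
      ![fderiv ℝ a x v, fderiv ℝ b x v, fderiv ℝ d x v] := by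
  have h1 : HasFDerivAt (fun y => ![a y, b y, d y])
      (ContinuousLinearMap.pi fun i : Fin 3 => ![fderiv ℝ a x, fderiv ℝ b x, fderiv ℝ d x] i) x := by
    rw [hasFDerivAt_pi']
    intro i
    fin_cases i
    · exact ha.hasFDerivAt
    · exact hb.hasFDerivAt
    · exact hd.hasFDerivAt
  rw [h1.fderiv]
  funext i
  fin_cases i <;> rfl

/-- the frame in front of the gate of `z_1` -/
noncomputable def frT (R c : ℝ) (τ2 : ℂ → ℂ) (φ2 : ℂ → ℝ) (v : Fin 3 → ℂ) : Fin 3 → ℂ :=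
  ![(((v 0).re + (R + c) / 2 + (ar (τ2 (v 2)) + ar (v 1) - c) : ℝ) : ℂ) +
      (((v 0).im : ℝ) : ℂ) * I,
    ((ar (τ2 (v 2)) + ar (v 1) - c : ℝ) : ℂ) + ((φ2 (v 2) - (v 0).im : ℝ) : ℂ) * I,
    ee (-(φ2 (v 2))) * v 1]

/-- a map of the last two slots -/
noncomputable def two (G : ℂ × ℂ → ℂ × ℂ) (X : Fin 3 → ℂ) : Fin 3 → ℂ :=
  ![X 0, (G (X 1, X 2)).1, (G (X 1, X 2)).2]

theorem preT_eq (R c : ℝ) (τ2 : ℂ → ℂ) (φ2 : ℂ → ℝ) (g1 : ℂ × ℂ → ℂ × ℂ) :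
    preT R c τ2 φ2 g1 = fun v => two g1 (frT R c τ2 φ2 v) := rfl

section two

variable {r δ ε : ℝ} {s : ℝ → ℝ} {τ : ℂ → ℂ} {φ : ℂ → ℝ} {S G : ℂ × ℂ → ℂ × ℂ}

theorem pair_contDiff : ContDiff ℝ ∞ (fun X : Fin 3 → ℂ => (X 1, X 2)) :=
  (contDiff_apply ℝ ℂ (1 : Fin 3)).prodMk (contDiff_apply ℝ ℂ (2 : Fin 3))

theorem two_contDiffAt (hG : OG r δ ε s τ φ S G) {X : Fin 3 → ℂ} (hX : ‖X 2‖ < r) :
    ContDiffAt ℝ ∞ (two G) X := by
  have h1 : ContDiffAt ℝ ∞ (fun X : Fin 3 → ℂ => G (X 1, X 2)) X :=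
    ContDiffAt.comp (g := G) X (hG.smooth (X 1, X 2) hX) pair_contDiff.contDiffAt
  exact cda3 (contDiff_apply ℝ ℂ (0 : Fin 3)).contDiffAt (contDiff_fst.contDiffAt.comp X h1)
    (contDiff_snd.contDiffAt.comp X h1)

theorem two_sympl (hG : OG r δ ε s τ φ S G) {X : Fin 3 → ℂ} (hX : ‖X 2‖ < r)
    (v w : Fin 3 → ℂ) :
    omega (fderiv ℝ (two G) X v) (fderiv ℝ (two G) X w) = omega v w := by
  have hGd : DifferentiableAt ℝ G (X 1, X 2) := (hG.smooth (X 1, X 2) hX).differentiableAt (by simp)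
  have hp : HasFDerivAt (fun X : Fin 3 → ℂ => (X 1, X 2))
      ((ContinuousLinearMap.proj (R := ℝ) (φ := fun _ : Fin 3 => ℂ) 1).prod
        (ContinuousLinearMap.proj (R := ℝ) (φ := fun _ : Fin 3 => ℂ) 2)) X :=
    (ContinuousLinearMap.proj (R := ℝ) (φ := fun _ : Fin 3 => ℂ) 1).hasFDerivAt.prodMk
      (ContinuousLinearMap.proj (R := ℝ) (φ := fun _ : Fin 3 => ℂ) 2).hasFDerivAt
  have h1 : HasFDerivAt (fun X : Fin 3 → ℂ => G (X 1, X 2))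
      ((fderiv ℝ G (X 1, X 2)).comp
        ((ContinuousLinearMap.proj (R := ℝ) (φ := fun _ : Fin 3 => ℂ) 1).prod
        (ContinuousLinearMap.proj (R := ℝ) (φ := fun _ : Fin 3 => ℂ) 2))) X :=
    HasFDerivAt.comp (g := G) X hGd.hasFDerivAt hp
  have h2 := (ContinuousLinearMap.fst ℝ ℂ ℂ).hasFDerivAt.comp X h1
  have h3 := (ContinuousLinearMap.snd ℝ ℂ ℂ).hasFDerivAt.comp X h1
  have h0 : HasFDerivAt (fun X : Fin 3 → ℂ => X 0)
      (ContinuousLinearMap.proj (R := ℝ) (φ := fun _ : Fin 3 => ℂ) 0) X :=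
    (ContinuousLinearMap.proj (R := ℝ) (φ := fun _ : Fin 3 => ℂ) 0).hasFDerivAt
  have e2 : (fun X : Fin 3 → ℂ => (G (X 1, X 2)).1) =
      (⇑(ContinuousLinearMap.fst ℝ ℂ ℂ) ∘ fun X : Fin 3 → ℂ => G (X 1, X 2)) := rfl
  have e3 : (fun X : Fin 3 → ℂ => (G (X 1, X 2)).2) =
      (⇑(ContinuousLinearMap.snd ℝ ℂ ℂ) ∘ fun X : Fin 3 → ℂ => G (X 1, X 2)) := rfl
  have key : ∀ v : Fin 3 → ℂ, fderiv ℝ (two G) X v =
      ![v 0, (fderiv ℝ G (X 1, X 2) (v 1, v 2)).1, (fderiv ℝ G (X 1, X 2) (v 1, v 2)).2] := by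
    intro v
    have h4 := fd3 (E := Fin 3 → ℂ) h0.differentiableAt h2.differentiableAt h3.differentiableAt v
    have h5 : two G = fun X : Fin 3 → ℂ => ![X 0,
        (⇑(ContinuousLinearMap.fst ℝ ℂ ℂ) ∘ fun X : Fin 3 → ℂ => G (X 1, X 2)) X,
        (⇑(ContinuousLinearMap.snd ℝ ℂ ℂ) ∘ fun X : Fin 3 → ℂ => G (X 1, X 2)) X] := rfl
    rw [h5, h4, h0.fderiv, h2.fderiv, h3.fderiv]
    rfl
  rw [key, key, omega3, omega3]
  have h6 := hG.sympl (X 1, X 2) hX (v 1, v 2) (w 1, w 2)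
  unfold om2 at h6
  simp only [Matrix.cons_val_zero, Matrix.cons_val_one, Matrix.cons_val]
  linarith

end two

section frT

variable {r δ ε R c : ℝ} {s : ℝ → ℝ} {τ : ℂ → ℂ} {φ : ℂ → ℝ} {S G : ℂ × ℂ → ℂ × ℂ}

theorem slot_contDiffAt (i : Fin 3) (v : Fin 3 → ℂ) :
    ContDiffAt ℝ ∞ (fun v : Fin 3 → ℂ => v i) v := (contDiff_apply ℝ ℂ i).contDiffAt

theorem arτ_contDiffAt (hG : OG r δ ε s τ φ S G) (v : Fin 3 → ℂ) :
    ContDiffAt ℝ ∞ (fun v : Fin 3 → ℂ => ar (τ (v 2))) v :=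
  ar_contDiff.contDiffAt.comp v (hG.tau.smooth.contDiffAt.comp v (slot_contDiffAt 2 v))

theorem frT_contDiffAt (hG : OG r δ ε s τ φ S G) {v : Fin 3 → ℂ} (hv : ‖v 2‖ < r) :
    ContDiffAt ℝ ∞ (frT R c τ φ) v := by
  have h0 := slot_contDiffAt 0 v
  have h1 := slot_contDiffAt 1 v
  have h2 := slot_contDiffAt 2 v
  have hre : ContDiffAt ℝ ∞ (fun v : Fin 3 → ℂ => (v 0).re) v := reCLM.contDiff.contDiffAt.comp v h0
  have him : ContDiffAt ℝ ∞ (fun v : Fin 3 → ℂ => (v 0).im) v := imCLM.contDiff.contDiffAt.comp v h0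
  have hu : ContDiffAt ℝ ∞ (fun v : Fin 3 → ℂ => ar (v 1)) v := ar_contDiff.contDiffAt.comp v h1
  have hτ := arτ_contDiffAt hG v
  have hφ : ContDiffAt ℝ ∞ (fun v : Fin 3 → ℂ => φ (v 2)) v :=
    ContDiffAt.comp (g := φ) v (hG.phi_smooth (v 2) hv) h2
  have hl : ContDiffAt ℝ ∞ (fun v : Fin 3 → ℂ => ar (τ (v 2)) + ar (v 1) - c) v :=
    (hτ.add hu).sub contDiffAt_const
  exact cda3 (reim_contDiffAt ((hre.add contDiffAt_const).add hl) him)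
    (reim_contDiffAt hl (hφ.sub him)) ((ee_contDiff.contDiffAt.comp v hφ.neg).mul h1)

theorem frT_sympl (hG : OG r δ ε s τ φ S G) {X : Fin 3 → ℂ} (hX : ‖X 2‖ < r)
    (v w : Fin 3 → ℂ) :
    omega (fderiv ℝ (frT R c τ φ) X v) (fderiv ℝ (frT R c τ φ) X w) = omega v w := by
  have hpr : ∀ j : Fin 3, HasFDerivAt (fun w : Fin 3 → ℂ => w j)
      (ContinuousLinearMap.proj (R := ℝ) (φ := fun _ : Fin 3 => ℂ) j) X :=
    fun j => (ContinuousLinearMap.proj (R := ℝ) (φ := fun _ : Fin 3 => ℂ) j).hasFDerivAt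
  have hre : HasFDerivAt (fun v : Fin 3 → ℂ => (v 0).re)
      (reCLM.comp (ContinuousLinearMap.proj (R := ℝ) (φ := fun _ : Fin 3 => ℂ) 0)) X :=
    reCLM.hasFDerivAt.comp X (hpr 0)
  have him : HasFDerivAt (fun v : Fin 3 → ℂ => (v 0).im)
      (imCLM.comp (ContinuousLinearMap.proj (R := ℝ) (φ := fun _ : Fin 3 => ℂ) 0)) X :=
    imCLM.hasFDerivAt.comp X (hpr 0)
  have hu : HasFDerivAt (fun v : Fin 3 → ℂ => ar (v 1))
      ((arD (X 1)).comp (ContinuousLinearMap.proj (R := ℝ) (φ := fun _ : Fin 3 => ℂ) 1)) X :=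
    HasFDerivAt.comp (g := ar) X (ar_hasFDerivAt (X 1)) (hpr 1)
  have hτ0 : DifferentiableAt ℝ (fun z => ar (τ z)) (X 2) :=
    (ar_contDiff.contDiffAt.comp (X 2) hG.tau.smooth.contDiffAt).differentiableAt (by simp)
  have hτ : HasFDerivAt (fun v : Fin 3 → ℂ => ar (τ (v 2)))
      ((fderiv ℝ (fun z => ar (τ z)) (X 2)).comp
        (ContinuousLinearMap.proj (R := ℝ) (φ := fun _ : Fin 3 => ℂ) 2)) X :=
    HasFDerivAt.comp (g := fun z => ar (τ z)) X hτ0.hasFDerivAt (hpr 2)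
  have hφ0 : DifferentiableAt ℝ φ (X 2) := (hG.phi_smooth (X 2) hX).differentiableAt (by simp)
  have hφ : HasFDerivAt (fun v : Fin 3 → ℂ => φ (v 2))
      ((fderiv ℝ φ (X 2)).comp
        (ContinuousLinearMap.proj (R := ℝ) (φ := fun _ : Fin 3 => ℂ) 2)) X :=
    HasFDerivAt.comp (g := φ) X hφ0.hasFDerivAt (hpr 2)
  set A' := (fderiv ℝ (fun z => ar (τ z)) (X 2)).comp
        (ContinuousLinearMap.proj (R := ℝ) (φ := fun _ : Fin 3 => ℂ) 2) with hA'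
  set U' := (arD (X 1)).comp (ContinuousLinearMap.proj (R := ℝ) (φ := fun _ : Fin 3 => ℂ) 1)
    with hU'
  set P' := (fderiv ℝ φ (X 2)).comp
        (ContinuousLinearMap.proj (R := ℝ) (φ := fun _ : Fin 3 => ℂ) 2) with hP'
  set Q' := reCLM.comp (ContinuousLinearMap.proj (R := ℝ) (φ := fun _ : Fin 3 => ℂ) 0) with hQ'
  set T' := imCLM.comp (ContinuousLinearMap.proj (R := ℝ) (φ := fun _ : Fin 3 => ℂ) 0) with hT'
  have hl : HasFDerivAt (fun v : Fin 3 → ℂ => ar (τ (v 2)) + ar (v 1) - c) (A' + U') X :=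
    (hτ.add hu).sub_const c
  have hx : HasFDerivAt (fun v : Fin 3 → ℂ => (v 0).re + (R + c) / 2 +
      (ar (τ (v 2)) + ar (v 1) - c)) (Q' + (A' + U')) X :=
    (hre.add_const ((R + c) / 2)).add hl
  have hb : HasFDerivAt (fun v : Fin 3 → ℂ => φ (v 2) - (v 0).im) (P' - T') X := hφ.sub him
  have hc : DifferentiableAt ℝ (fun v : Fin 3 → ℂ => ee (-(φ (v 2))) * v 1) X :=
    ((ee_comp_hasFDerivAt hφ.neg).mul (hpr 1)).differentiableAt
  have key := fd3 (E := Fin 3 → ℂ) (reim_hasFDerivAt hx him).differentiableAt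
    (reim_hasFDerivAt hl hb).differentiableAt hc
  have hfr : frT R c τ φ = fun v : Fin 3 → ℂ =>
    ![(((v 0).re + (R + c) / 2 + (ar (τ (v 2)) + ar (v 1) - c) : ℝ) : ℂ) +
      (((v 0).im : ℝ) : ℂ) * I,
    ((ar (τ (v 2)) + ar (v 1) - c : ℝ) : ℂ) + ((φ (v 2) - (v 0).im : ℝ) : ℂ) * I,
    ee (-(φ (v 2))) * v 1] := rfl
  have k1 := om1_reim hx him v w
  have k2 := om1_reim hl hb v w
  have k3 := om1_phase (ψ := fun v : Fin 3 → ℂ => -φ (v 2)) (h := fun v : Fin 3 → ℂ => v 1)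
    hφ.neg (hpr 1) v w
  have k4 := hG.phi_wd (X 2) hX (v 2) (w 2)
  rw [hfr, key v, key w, omega3, omega3]
  simp only [Matrix.cons_val_zero, Matrix.cons_val_one, Matrix.cons_val]
  rw [k1, k2, k3, ← k4]
  simp only [wd, om1, hA', hU', hP', hQ', hT', add_apply, neg_apply, sub_apply,
    ContinuousLinearMap.comp_apply, ContinuousLinearMap.proj_apply, reCLM_apply, imCLM_apply]
  ring

end frT

/-- composition of symplectic maps -/
theorem sympl_comp3 {f g : (Fin 3 → ℂ) → (Fin 3 → ℂ)} {X : Fin 3 → ℂ}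
    (hf : DifferentiableAt ℝ f X) (hg : DifferentiableAt ℝ g (f X))
    (sf : ∀ x y, omega (fderiv ℝ f X x) (fderiv ℝ f X y) = omega x y)
    (sg : ∀ x y, omega (fderiv ℝ g (f X) x) (fderiv ℝ g (f X) y) = omega x y)
    (x y : Fin 3 → ℂ) :
    omega (fderiv ℝ (fun v => g (f v)) X x) (fderiv ℝ (fun v => g (f v)) X y) = omega x y := by
  have h3 : fderiv ℝ (fun v => g (f v)) X = (fderiv ℝ g (f X)).comp (fderiv ℝ f X) :=
    fderiv_comp X hg hf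
  rw [h3]
  simp only [ContinuousLinearMap.comp_apply]
  rw [sg, sf]

section preT

variable {r δ ε δ' ε' R c : ℝ} {s s' : ℝ → ℝ} {τ τ' : ℂ → ℂ} {φ φ' : ℂ → ℝ}
  {S G S' G' : ℂ × ℂ → ℂ × ℂ}

theorem frT_two (v : Fin 3 → ℂ) : frT R c τ φ v 2 = ee (-(φ (v 2))) * v 1 := rfl

theorem frT_two_norm (v : Fin 3 → ℂ) : ‖frT R c τ φ v 2‖ = ‖v 1‖ := by
  rw [frT_two, norm_mul, ee_norm, one_mul]

/-- **`preT` is smooth.** -/
theorem preT_contDiffAt (hG : OG r δ ε s τ φ S G) (hG' : OG r δ' ε' s' τ' φ' S' G')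
    {v : Fin 3 → ℂ} (h1 : ‖v 1‖ < r) (h2 : ‖v 2‖ < r) :
    ContDiffAt ℝ ∞ (preT R c τ φ G') v := by
  rw [preT_eq]
  have h3 : ContDiffAt ℝ ∞ (two G') (frT R c τ φ v) := two_contDiffAt hG' (by
    rwa [frT_two_norm])
  exact ContDiffAt.comp (g := two G') v h3 (frT_contDiffAt hG h2)

/-- **`preT` is symplectic.** -/
theorem preT_sympl (hG : OG r δ ε s τ φ S G) (hG' : OG r δ' ε' s' τ' φ' S' G')
    {v : Fin 3 → ℂ} (h1 : ‖v 1‖ < r) (h2 : ‖v 2‖ < r) (x y : Fin 3 → ℂ) :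
    omega (fderiv ℝ (preT R c τ φ G') v x) (fderiv ℝ (preT R c τ φ G') v y) = omega x y := by
  rw [preT_eq]
  have h3 : ‖frT R c τ φ v 2‖ < r := by rwa [frT_two_norm]
  exact sympl_comp3 ((frT_contDiffAt hG h2).differentiableAt (by simp))
    ((two_contDiffAt hG' h3).differentiableAt (by simp)) (frT_sympl hG h2)
    (two_sympl hG' h3) x y

/-- the input of the gate of `z_1` in `preT` -/
noncomputable def inT (c : ℝ) (τ : ℂ → ℂ) (φ : ℂ → ℝ) (v : Fin 3 → ℂ) : ℂ × ℂ :=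
  (((ar (τ (v 2)) + ar (v 1) - c : ℝ) : ℂ) + ((φ (v 2) - (v 0).im : ℝ) : ℂ) * I,
    ee (-(φ (v 2))) * v 1)

theorem inT_re (v : Fin 3 → ℂ) : (inT c τ φ v).1.re = ar (τ (v 2)) + ar (v 1) - c := by
  simp [inT]

theorem inT_norm (v : Fin 3 → ℂ) : ‖(inT c τ φ v).2‖ = ‖v 1‖ := by
  simp [inT, ee_norm]

theorem inT_ar (v : Fin 3 → ℂ) : ar (inT c τ φ v).2 = ar (v 1) := by
  show ar (ee (-(φ (v 2))) * v 1) = _
  rw [ar_mul_of_norm_one (ee_norm _)]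

theorem preT_zero (v : Fin 3 → ℂ) : preT R c τ φ G' v 0 =
    (((v 0).re + (R + c) / 2 + (ar (τ (v 2)) + ar (v 1) - c) : ℝ) : ℂ) +
      (((v 0).im : ℝ) : ℂ) * I := rfl

theorem preT_one (v : Fin 3 → ℂ) : preT R c τ φ G' v 1 = (G' (inT c τ φ v)).1 := rfl

theorem preT_two (v : Fin 3 → ℂ) : preT R c τ φ G' v 2 = (G' (inT c τ φ v)).2 := rfl

theorem preT_zero_re (v : Fin 3 → ℂ) : (preT R c τ φ G' v 0).re =
    (v 0).re + (R + c) / 2 + (ar (τ (v 2)) + ar (v 1) - c) := by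
  rw [preT_zero]; simp

theorem preT_zero_im (v : Fin 3 → ℂ) : (preT R c τ φ G' v 0).im = (v 0).im := by
  rw [preT_zero]; simp

/-- `x_2 - x_0 = l` -/
theorem preT_diff (hG' : OG r δ' ε' s' τ' φ' S' G') {v : Fin 3 → ℂ} (h1 : ‖v 1‖ < r) :
    ar (preT R c τ φ G' v 1) - ar (preT R c τ φ G' v 2) = ar (τ (v 2)) + ar (v 1) - c := by
  rw [preT_one, preT_two, hG'.diff _ (by rwa [inT_norm]), inT_re]

theorem preT_sum (hG' : OG r δ' ε' s' τ' φ' S' G') {v : Fin 3 → ℂ} (h1 : ‖v 1‖ < r) :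
    ar (preT R c τ φ G' v 1) + ar (preT R c τ φ G' v 2) ≤
      2 * ar (v 1) + |ar (τ (v 2)) + ar (v 1) - c| + ε' := by
  rw [preT_one, preT_two]
  have := hG'.sum (inT c τ φ v) (by rwa [inT_norm])
  rwa [inT_re, inT_ar] at this

theorem preT_pos (hG' : OG r δ' ε' s' τ' φ' S' G') {v : Fin 3 → ℂ} (h1 : ‖v 1‖ < r)
    (hs : s' (ar (τ (v 2)) + ar (v 1) - c) = 1) : 0 < ar (preT R c τ φ G' v 1) := by
  rw [preT_one]
  have h2 := hG'.pos1 (inT c τ φ v) (by rwa [inT_norm]) (by rwa [inT_re])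
  have h3 := ar_pos.2 (hG'.tau_ne (inT c τ φ v).2 (by rwa [inT_norm]))
  linarith

end preT

end Vale.Agent.P209.H39
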