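import Vale.Agent.P209.H39.MSa

/-!
# The middle chart of model M, second part: the change of `x_1`
-/

namespace Vale.Agent.P209.H39

open Vale.Agent.P209 H684 H578 H721 H687
open Vale.Agent.P209.Strong hiding chi
open scoped ContDiff
open Complex

section gq

variable {R c η : ℝ} {t : ℝ → ℝ} {qs : ℝ × ℝ → ℝ}

/-- `Λ` on the target, slots `(x_2, x_0)` -/
def Lt (c : ℝ) (u : Fin 2 → ℝ) : ℝ := c + 3 * u 0 - u 1

/-- `Q` on the target -/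
noncomputable def Qt (R c : ℝ) (q : ℝ × (Fin 2 → ℝ)) : ℝ := q.1 - (R + c) / 2 - q.2 0 + q.2 1

theorem gq_def (q : ℝ × (Fin 2 → ℝ)) :
    gq R c qs q = (R - q.2 0 - q.2 1) / 2 + qs (Qt R c q, Lt c q.2) := rfl

theorem inner_contDiff : ContDiff ℝ ∞ (fun q : ℝ × (Fin 2 → ℝ) => (Qt R c q, Lt c q.2)) := by
  unfold Qt Lt
  fun_prop

theorem gq_contDiffAt (hq : InvQ t qs) {q : ℝ × (Fin 2 → ℝ)} (hL : 0 < Lt c q.2) :
    ContDiffAt ℝ ∞ (gq R c qs) q := by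
  have h1 : ContDiffAt ℝ ∞ (fun q : ℝ × (Fin 2 → ℝ) => qs (Qt R c q, Lt c q.2)) q :=
    ContDiffAt.comp (g := qs) q (hq.smooth (Qt R c q) (Lt c q.2) hL) inner_contDiff.contDiffAt
  have h2 : ContDiffAt ℝ ∞ (fun q : ℝ × (Fin 2 → ℝ) => (R - q.2 0 - q.2 1) / 2) q := by
    have : ContDiff ℝ ∞ (fun q : ℝ × (Fin 2 → ℝ) => (R - q.2 0 - q.2 1) / 2) := by fun_prop
    exact this.contDiffAt
  exact h2.add h1

/-- the derivative of the inverse: `∂ qs / ∂ Q = 1 / (1 + t' Λ)` -/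
theorem qs_deriv (ht : StepQ η t) (hq : InvQ t qs) {Q Λ : ℝ} (hL : 0 < Λ) :
    fderiv ℝ qs (Q, Λ) (1, 0) * (1 + deriv t (qs (Q, Λ)) * Λ) = 1 := by
  have h0 : HasFDerivAt qs (fderiv ℝ qs (Q, Λ)) (Q, Λ) :=
    ((hq.smooth Q Λ hL).differentiableAt (by simp)).hasFDerivAt
  have h1 : HasDerivAt (fun x : ℝ => (x, Λ)) ((1 : ℝ), (0 : ℝ)) Q :=
    (hasDerivAt_id Q).prodMk (hasDerivAt_const Q Λ)
  have h2 : HasDerivAt (fun x : ℝ => qs (x, Λ)) (fderiv ℝ qs (Q, Λ) (1, 0)) Q :=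
    HasFDerivAt.comp_hasDerivAt (f := fun x : ℝ => (x, Λ)) Q h0 h1
  have h3 : HasDerivAt t (deriv t (qs (Q, Λ))) (qs (Q, Λ)) :=
    (ht.smooth.contDiffAt.differentiableAt (by simp)).hasDerivAt
  have h4 : HasDerivAt (fun x : ℝ => t (qs (x, Λ)))
      (deriv t (qs (Q, Λ)) * fderiv ℝ qs (Q, Λ) (1, 0)) Q :=
    HasDerivAt.comp (h₂ := t) (h := fun x : ℝ => qs (x, Λ)) Q h3 h2
  have h5 : HasDerivAt (fun x : ℝ => qs (x, Λ) + t (qs (x, Λ)) * Λ)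
      (fderiv ℝ qs (Q, Λ) (1, 0) + deriv t (qs (Q, Λ)) * fderiv ℝ qs (Q, Λ) (1, 0) * Λ) Q :=
    h2.add (h4.mul_const Λ)
  have h6 : (fun x : ℝ => qs (x, Λ) + t (qs (x, Λ)) * Λ) = fun x => x :=
    funext fun x => hq.eq x Λ hL.le
  rw [h6] at h5
  have h7 := h5.unique (hasDerivAt_id Q)
  linarith

theorem gq_Fp (ht : StepQ η t) (hq : InvQ t qs) {q : ℝ × (Fin 2 → ℝ)} (hL : 0 < Lt c q.2) :
    Fp (gq R c qs) q * (1 + deriv t (qs (Qt R c q, Lt c q.2)) * Lt c q.2) = 1 := by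
  have h0 : HasFDerivAt qs (fderiv ℝ qs (Qt R c q, Lt c q.2)) (Qt R c q, Lt c q.2) :=
    ((hq.smooth _ _ hL).differentiableAt (by simp)).hasFDerivAt
  have hd : DifferentiableAt ℝ (gq R c qs) q := (gq_contDiffAt hq hL).differentiableAt (by simp)
  have h1 : HasDerivAt (fun x : ℝ => gq R c qs (q.1 + x, q.2)) (fderiv ℝ (gq R c qs) q (1, 0)) 0 := by
    have h2 : HasDerivAt (fun x : ℝ => (q.1 + x, q.2)) ((1 : ℝ), (0 : Fin 2 → ℝ)) 0 := by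
      have h3 : HasDerivAt (fun x : ℝ => q.1 + x) 1 0 := (hasDerivAt_id (0 : ℝ)).const_add q.1
      exact h3.prodMk (hasDerivAt_const (0 : ℝ) q.2)
    have h4 : HasFDerivAt (gq R c qs) (fderiv ℝ (gq R c qs) q) (q.1 + 0, q.2) := by
      rw [add_zero]; exact hd.hasFDerivAt
    exact HasFDerivAt.comp_hasDerivAt (f := fun x : ℝ => (q.1 + x, q.2)) (0 : ℝ) h4 h2
  have h5 : HasDerivAt (fun x : ℝ => gq R c qs (q.1 + x, q.2))
      (fderiv ℝ qs (Qt R c q, Lt c q.2) (1, 0)) 0 := by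
    have h2 : HasDerivAt (fun x : ℝ => (Qt R c q + x, Lt c q.2)) ((1 : ℝ), (0 : ℝ)) 0 := by
      have h3 : HasDerivAt (fun x : ℝ => Qt R c q + x) 1 0 :=
        (hasDerivAt_id (0 : ℝ)).const_add _
      exact h3.prodMk (hasDerivAt_const (0 : ℝ) _)
    have h4 : HasFDerivAt qs (fderiv ℝ qs (Qt R c q, Lt c q.2)) (Qt R c q + 0, Lt c q.2) := by
      rw [add_zero]; exact h0
    have h6 : HasDerivAt (fun x : ℝ => qs (Qt R c q + x, Lt c q.2))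
        (fderiv ℝ qs (Qt R c q, Lt c q.2) (1, 0)) 0 :=
      HasFDerivAt.comp_hasDerivAt (f := fun x : ℝ => (Qt R c q + x, Lt c q.2)) (0 : ℝ) h4 h2
    have h7 := h6.const_add ((R - q.2 0 - q.2 1) / 2)
    have h8 : (fun x : ℝ => gq R c qs (q.1 + x, q.2)) =
        fun x : ℝ => (R - q.2 0 - q.2 1) / 2 + qs (Qt R c q + x, Lt c q.2) := by
      funext x
      rw [gq_def]
      unfold Qt Lt
      simp only
      congr 3
      ring
    rw [h8]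
    exact h7
  have h9 : Fp (gq R c qs) q = fderiv ℝ qs (Qt R c q, Lt c q.2) (1, 0) := h1.unique h5
  rw [h9]
  exact qs_deriv ht hq hL

theorem den_pos (ht : StepQ η t) {x Λ : ℝ} (hL : 0 ≤ Λ) : 0 < 1 + deriv t x * Λ := by
  have := mul_nonneg (ht.deriv_nonneg x) hL
  linarith

theorem gq_Fp_ne (ht : StepQ η t) (hq : InvQ t qs) {q : ℝ × (Fin 2 → ℝ)} (hL : 0 < Lt c q.2) :
    Fp (gq R c qs) q ≠ 0 := by
  intro h
  have := gq_Fp (R := R) ht hq hL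
  rw [h, zero_mul] at this
  exact zero_ne_one this

/-- the new angle -/
theorem gq_ctau (ht : StepQ η t) (hq : InvQ t qs) {w : Fin 3 → ℂ} (hL : 0 < Lt c (uu w)) :
    ctau (gq R c qs) w = (w 0).im * (1 + deriv t (qs (Qt R c (qq w), Lt c (uu w))) *
      Lt c (uu w)) := by
  have h1 := gq_Fp (R := R) ht hq (q := qq w) hL
  have h2 := gq_Fp_ne (R := R) ht hq (q := qq w) hL
  have h3 : (qq w).2 = uu w := rfl
  rw [h3] at h1
  unfold ctau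
  rw [div_eq_iff h2]
  linear_combination (-(w 0).im) * h1

theorem cl_contDiffAt (ht : StepQ η t) (hq : InvQ t qs) {w : Fin 3 → ℂ}
    (hL : 0 < Lt c (uu w)) : ContDiffAt ℝ ∞ (clift (gq R c qs)) w :=
  clift_contDiffAt (gq_contDiffAt hq hL) (gq_Fp_ne ht hq hL)

theorem cl_sympl (ht : StepQ η t) (hq : InvQ t qs) {w : Fin 3 → ℂ}
    (hL : 0 < Lt c (uu w)) (x y : Fin 3 → ℂ) :
    omega (fderiv ℝ (clift (gq R c qs)) w x) (fderiv ℝ (clift (gq R c qs)) w y) = omega x y :=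
  clift_sympl (gq_contDiffAt hq hL) (gq_Fp_ne ht hq hL) x y

/-- if `-(b + Λ / 2) < Q` then `-b < qs` -/
theorem qs_lb (ht : StepQ η t) (hq : InvQ t qs) {Q Λ b : ℝ} (hL : 0 ≤ Λ) (hb : η / 2 ≤ b)
    (h : -(b + Λ / 2) < Q) : -b < qs (Q, Λ) := by
  by_contra hlt
  rw [not_lt] at hlt
  have h1 := ht.one (-qs (Q, Λ)) (by linarith)
  rw [ht.odd] at h1
  have h2 := hq.eq Q Λ hL
  have h3 : t (qs (Q, Λ)) = -(1 / 2) := by linarith
  rw [h3] at h2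
  linarith

/-- if `Q < b + Λ / 2` then `qs < b` -/
theorem qs_ub (ht : StepQ η t) (hq : InvQ t qs) {Q Λ b : ℝ} (hL : 0 ≤ Λ) (hb : η / 2 ≤ b)
    (h : Q < b + Λ / 2) : qs (Q, Λ) < b := by
  by_contra hlt
  rw [not_lt] at hlt
  have h1 := ht.one (qs (Q, Λ)) (by linarith)
  have h2 := hq.eq Q Λ hL
  rw [h1] at h2
  linarith

end gq

theorem uu0 (w : Fin 3 → ℂ) : uu w 0 = ar (w 1) := rfl

theorem uu1 (w : Fin 3 → ℂ) : uu w 1 = ar (w 2) := rfl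

end Vale.Agent.P209.H39
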