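import Vale.Agent.P209.H39.MSb

/-!
# The middle chart of model M, third part: the areas
-/

namespace Vale.Agent.P209.H39

open Vale.Agent.P209 H684 H578 H721 H687
open Vale.Agent.P209.Strong hiding chi
open scoped ContDiff
open Complex

section ph0

theorem ph0_contDiffAt {X : Fin 3 → ℂ} (hX : 0 < (X 0).re) : ContDiffAt ℝ ∞ ph0 X :=
  cda3 (slot_contDiffAt 2 X) (ContDiffAt.comp (g := phiA) X (phiA_contDiffAt hX)
    (slot_contDiffAt 0 X)) (slot_contDiffAt 1 X)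

theorem ph0_sympl {X : Fin 3 → ℂ} (hX : 0 < (X 0).re) (v w : Fin 3 → ℂ) :
    omega (fderiv ℝ ph0 X v) (fderiv ℝ ph0 X w) = omega v w := by
  have hpr : ∀ j : Fin 3, HasFDerivAt (fun w : Fin 3 → ℂ => w j)
      (ContinuousLinearMap.proj (R := ℝ) (φ := fun _ : Fin 3 => ℂ) j) X :=
    fun j => (ContinuousLinearMap.proj (R := ℝ) (φ := fun _ : Fin 3 => ℂ) j).hasFDerivAt
  have h1 : HasFDerivAt (fun w : Fin 3 → ℂ => phiA (w 0))
      ((fderiv ℝ phiA (X 0)).comp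
        (ContinuousLinearMap.proj (R := ℝ) (φ := fun _ : Fin 3 => ℂ) 0)) X :=
    HasFDerivAt.comp (g := phiA) X (phiA_hasFDerivAt hX).differentiableAt.hasFDerivAt (hpr 0)
  have key := fd3 (E := Fin 3 → ℂ) (hpr 2).differentiableAt h1.differentiableAt
    (hpr 1).differentiableAt
  have e : (ph0 : (Fin 3 → ℂ) → (Fin 3 → ℂ)) = fun X => ![X 2, phiA (X 0), X 1] := rfl
  rw [e, key v, key w, omega3, omega3, h1.fderiv, (hpr 2).fderiv, (hpr 1).fderiv]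
  simp only [Matrix.cons_val_zero, Matrix.cons_val_one, Matrix.cons_val,
    ContinuousLinearMap.comp_apply, ContinuousLinearMap.proj_apply]
  rw [phiA_sympl hX]
  ring

end ph0

/-- the numbers of a point of the middle chart -/
structure MNum (R c m η : ℝ) (D : Dat R c m η) (v : Fin 3 → ℂ) : Prop where
  n1 : ‖v 1‖ < D.r
  n2 : ‖v 2‖ < D.r
  /-- the clock of the gate of `z_1` is on -/
  clk : D.s1 (ar (D.τ2 (v 2)) + ar (v 1) - c) = 1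
  l_lt : ar (D.τ2 (v 2)) + ar (v 1) - c < (R - 2 * c) / 3
  pos2 : 0 < ar (preT R c D.τ2 D.φ2 D.g1 v 1)
  lt_c : ar (preT R c D.τ2 D.φ2 D.g1 v 2) < c
  Lpos : 0 < Lt c (uu (preT R c D.τ2 D.φ2 D.g1 v))
  Lle : Lt c (uu (preT R c D.τ2 D.φ2 D.g1 v)) ≤ Lam c m (uu v)
  Qeq : Qt R c (qq (preT R c D.τ2 D.φ2 D.g1 v)) = (v 0).re
  /-- `x_1, x_3 > 0` -/
  lb : -((R - ar (preT R c D.τ2 D.φ2 D.g1 v 1) - ar (preT R c D.τ2 D.φ2 D.g1 v 2)) / 2) <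
    D.qs ((v 0).re, Lt c (uu (preT R c D.τ2 D.φ2 D.g1 v)))
  ub : D.qs ((v 0).re, Lt c (uu (preT R c D.τ2 D.φ2 D.g1 v))) <
    (R - ar (preT R c D.τ2 D.φ2 D.g1 v 1) - ar (preT R c D.τ2 D.φ2 D.g1 v 2)) / 2

theorem mnum {R c m η : ℝ} (D : Dat R c m η) (H : Hyp R c m η) {v : Fin 3 → ℂ}
    (hv : v ∈ H687.DM R c m) : MNum R c m η D v := by
  obtain ⟨hm, hmc, hcR, hη, hηm⟩ := H
  obtain ⟨⟨h0, h1, h2, h3⟩, hk, hh⟩ := hv
  have e0 : uu v 0 = ar (v 1) := rfl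
  have e1 : uu v 1 = ar (v 2) := rfl
  rw [e0] at h0 h2 h3
  rw [e1] at h1 h3
  have a1 := ar_nonneg (v 1)
  have a2 := ar_nonneg (v 2)
  have n1 : ‖v 1‖ < D.r := D.hr _ (by linarith)
  have n2 : ‖v 2‖ < D.r := D.hr _ (by linarith)
  have hε := D.hε1
  have hε' := D.hε1'
  have hlow := D.low2 (v 2) (by linarith)
  have hup := D.og2.tau_ar (v 2) n2
  set a := ar (D.τ2 (v 2)) with ha
  set u0 := ar (v 1) with hu0
  set u1 := ar (v 2) with hu1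
  have hl : a + u0 - c < (R - 2 * c) / 3 := by linarith
  have clk : D.s1 (a + u0 - c) = 1 := D.hs1.one _ (by linarith)
  have hdiff := preT_diff (R := R) (c := c) (τ := D.τ2) (φ := D.φ2) D.og1 n1
  have hsum := preT_sum (R := R) (c := c) (τ := D.τ2) (φ := D.φ2) D.og1 n1
  have hpos := preT_pos (R := R) (c := c) (τ := D.τ2) (φ := D.φ2) D.og1 n1 clk
  have hre := preT_zero_re (R := R) (c := c) (τ := D.τ2) (φ := D.φ2) (G' := D.g1) v
  have hL : Lt c (uu (preT R c D.τ2 D.φ2 D.g1 v)) = c + 3 * ar (preT R c D.τ2 D.φ2 D.g1 v 1) -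
    ar (preT R c D.τ2 D.φ2 D.g1 v 2) := rfl
  have hQ : Qt R c (qq (preT R c D.τ2 D.φ2 D.g1 v)) = (preT R c D.τ2 D.φ2 D.g1 v 0).re -
    (R + c) / 2 - ar (preT R c D.τ2 D.φ2 D.g1 v 1) + ar (preT R c D.τ2 D.φ2 D.g1 v 2) := rfl
  have hx0 := ar_nonneg (preT R c D.τ2 D.φ2 D.g1 v 2)
  rw [← ha, ← hu0] at hdiff hsum hre
  have hLam : Lam c m (uu v) = 3 * u0 + u1 + 2 * H684.chi (m / 100) (u0 + u1 - c) + m / 2 := rfl
  have hkap : kap R c v = c - (R + c) / 2 - u0 - (v 0).re := rfl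
  have hkah : kah R c v = c - (R + c) / 2 - u0 + (v 0).re := rfl
  rw [hkap] at hk
  rw [hkah] at hh
  obtain ⟨c1, c2⟩ := chi_nonneg_aux (d := m / 100) (t := u0 + u1 - c) (by linarith)
  generalize H684.chi (m / 100) (u0 + u1 - c) = χ at hLam c1 c2
  generalize hx2 : ar (preT R c D.τ2 D.φ2 D.g1 v 1) = x2 at *
  generalize hx0' : ar (preT R c D.τ2 D.φ2 D.g1 v 2) = x0 at *
  have hLp : 0 < c + 3 * x2 - x0 := by linarith
  have habs : |a + u0 - c| = a + u0 - c ∧ 0 ≤ a + u0 - c ∨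
      |a + u0 - c| = -(a + u0 - c) ∧ a + u0 - c < 0 := by
    rcases le_or_gt 0 (a + u0 - c) with h | h
    · exact Or.inl ⟨abs_of_nonneg h, h⟩
    · exact Or.inr ⟨abs_of_neg h, h⟩
  have hb : η / 2 ≤ (R - x2 - x0) / 2 := by
    rcases habs with ⟨h, h'⟩ | ⟨h, h'⟩ <;> rw [h] at hsum <;> linarith
  refine ⟨n1, n2, clk, hl, by rw [hx2]; exact hpos, ?_, by rw [hL]; exact hLp, ?_, ?_, ?_, ?_⟩
  · rw [hx0']
    rcases habs with ⟨h, h'⟩ | ⟨h, h'⟩ <;> rw [h] at hsum <;> linarith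
  · rw [hL, hLam]
    rcases habs with ⟨h, h'⟩ | ⟨h, h'⟩ <;> rw [h] at hsum <;> linarith
  · rw [hQ, hre]
    linarith
  · rw [hL, hx2, hx0']
    refine qs_lb D.ht D.hqs hLp.le hb ?_
    linarith
  · rw [hL, hx2, hx0']
    refine qs_ub D.ht D.hqs hLp.le hb ?_
    linarith

section areas

variable {R c m η : ℝ} {D : Dat R c m η} {v : Fin 3 → ℂ}

/-- the slots before `ph0` -/
noncomputable def Wm (D : Dat R c m η) (v : Fin 3 → ℂ) : Fin 3 → ℂ :=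
  clift (gq R c D.qs) (preT R c D.τ2 D.φ2 D.g1 v)

theorem cM_eq (v : Fin 3 → ℂ) : D.cM v = gau R (ph0 (Wm D v)) := rfl

theorem Wm_ar1 (v : Fin 3 → ℂ) : ar (Wm D v 1) = ar (preT R c D.τ2 D.φ2 D.g1 v 1) :=
  congrFun (uu_clift (gq R c D.qs) (preT R c D.τ2 D.φ2 D.g1 v)) 0

theorem Wm_ar2 (v : Fin 3 → ℂ) : ar (Wm D v 2) = ar (preT R c D.τ2 D.φ2 D.g1 v 2) :=
  congrFun (uu_clift (gq R c D.qs) (preT R c D.τ2 D.φ2 D.g1 v)) 1

theorem Wm_re (h : MNum R c m η D v) : (Wm D v 0).re =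
    (R - ar (preT R c D.τ2 D.φ2 D.g1 v 1) - ar (preT R c D.τ2 D.φ2 D.g1 v 2)) / 2 +
      D.qs ((v 0).re, Lt c (uu (preT R c D.τ2 D.φ2 D.g1 v))) := by
  unfold Wm
  rw [clift_re, gq_def, h.Qeq]
  rfl

theorem Wm_im (h : MNum R c m η D v) : (Wm D v 0).im =
    (v 0).im * (1 + deriv D.t (D.qs ((v 0).re, Lt c (uu (preT R c D.τ2 D.φ2 D.g1 v)))) *
      Lt c (uu (preT R c D.τ2 D.φ2 D.g1 v))) := by
  unfold Wm
  rw [clift_im, gq_ctau D.ht D.hqs h.Lpos, h.Qeq, preT_zero_im]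

theorem Wm_re_pos (h : MNum R c m η D v) : 0 < (Wm D v 0).re := by
  rw [Wm_re h]
  have := h.lb
  linarith

theorem Wm_contDiffAt (h : MNum R c m η D v) : ContDiffAt ℝ ∞ (Wm D) v :=
  ContDiffAt.comp (g := clift (gq R c D.qs)) v (cl_contDiffAt D.ht D.hqs h.Lpos)
    (preT_contDiffAt D.og2 D.og1 h.n1 h.n2)

theorem Wm_sympl (h : MNum R c m η D v) (x y : Fin 3 → ℂ) :
    omega (fderiv ℝ (Wm D) v x) (fderiv ℝ (Wm D) v y) = omega x y :=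
  sympl_comp3 ((preT_contDiffAt D.og2 D.og1 h.n1 h.n2).differentiableAt (by simp))
    ((cl_contDiffAt D.ht D.hqs h.Lpos).differentiableAt (by simp))
    (preT_sympl D.og2 D.og1 h.n1 h.n2) (cl_sympl D.ht D.hqs h.Lpos) x y

/-- `(Z_0, Z_1, Z_2)` in the gauge `Z_3 > 0` -/
noncomputable def Ym (D : Dat R c m η) (v : Fin 3 → ℂ) : Fin 3 → ℂ := ph0 (Wm D v)

theorem Ym_ar0 (v : Fin 3 → ℂ) : ar (Ym D v 0) = ar (preT R c D.τ2 D.φ2 D.g1 v 2) := Wm_ar2 v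

theorem Ym_ar2 (v : Fin 3 → ℂ) : ar (Ym D v 2) = ar (preT R c D.τ2 D.φ2 D.g1 v 1) := Wm_ar1 v

theorem Ym_ar1 (h : MNum R c m η D v) : ar (Ym D v 1) = (Wm D v 0).re :=
  ar_phiA (Wm_re_pos h)

theorem Ym_two_ne (h : MNum R c m η D v) : Ym D v 2 ≠ 0 := by
  rw [← ar_pos, Ym_ar2]
  exact h.pos2

theorem Ym_lt (h : MNum R c m η D v) : ar (Ym D v 0) + ar (Ym D v 1) + ar (Ym D v 2) < R := by
  rw [Ym_ar0, Ym_ar1 h, Ym_ar2, Wm_re h]
  have := h.ub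
  linarith

theorem Ym_contDiffAt (h : MNum R c m η D v) : ContDiffAt ℝ ∞ (Ym D) v :=
  ContDiffAt.comp (g := ph0) v (ph0_contDiffAt (Wm_re_pos h)) (Wm_contDiffAt h)

theorem Ym_sympl (h : MNum R c m η D v) (x y : Fin 3 → ℂ) :
    omega (fderiv ℝ (Ym D) v x) (fderiv ℝ (Ym D) v y) = omega x y :=
  sympl_comp3 ((Wm_contDiffAt h).differentiableAt (by simp))
    ((ph0_contDiffAt (Wm_re_pos h)).differentiableAt (by simp)) (Wm_sympl h)
    (ph0_sympl (Wm_re_pos h)) x y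

end areas

end Vale.Agent.P209.H39
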