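import Vale.Agent.P209.H39.MSc
import Vale.Agent.P209.H686.Gau

/-!
# The middle chart of model M: row MS
-/

namespace Vale.Agent.P209.H39

open Vale.Agent.P209 H684 H578 H721 H687
open Vale.Agent.P209.Strong hiding chi
open Vale.Agent.P209.H686 (rst gau_contDiffAt gau_sympl ar_gau_zero ar_gau_one ar_gau_two)
open scoped ContDiff
open Complex

variable {R c m η : ℝ} {D : Dat R c m η} {v : Fin 3 → ℂ}

theorem Ym_rst (h : MNum R c m η D v) : 0 < rst R (Ym D v) := by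
  have := Ym_lt h
  unfold rst
  linarith

theorem cM_contDiffAt (h : MNum R c m η D v) : ContDiffAt ℝ ∞ D.cM v :=
  ContDiffAt.comp (g := gau R) (f := Ym D) v (gau_contDiffAt (Ym_two_ne h) (Ym_rst h))
    (Ym_contDiffAt h)

theorem cM_sympl (h : MNum R c m η D v) (x y : Fin 3 → ℂ) :
    omega (fderiv ℝ D.cM v x) (fderiv ℝ D.cM v y) = omega x y :=
  sympl_comp3 (f := Ym D) (g := gau R) ((Ym_contDiffAt h).differentiableAt (by simp))
    ((gau_contDiffAt (Ym_two_ne h) (Ym_rst h)).differentiableAt (by simp)) (Ym_sympl h)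
    (gau_sympl (Ym_two_ne h) (Ym_rst h)) x y

/-- `x_0` -/
theorem cM_ar0 (h : MNum R c m η D v) :
    ar (D.cM v 0) = ar (preT R c D.τ2 D.φ2 D.g1 v 2) :=
  (ar_gau_zero (R := R) (Ym_two_ne h)).trans (Ym_ar0 v)

/-- `x_1` -/
theorem cM_ar1 (h : MNum R c m η D v) : ar (D.cM v 1) =
    (R - ar (preT R c D.τ2 D.φ2 D.g1 v 1) - ar (preT R c D.τ2 D.φ2 D.g1 v 2)) / 2 +
      D.qs ((v 0).re, Lt c (uu (preT R c D.τ2 D.φ2 D.g1 v))) :=
  (ar_gau_one (R := R) (Ym_two_ne h)).trans ((Ym_ar1 h).trans (Wm_re h))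

/-- `x_3` -/
theorem cM_ar2 (h : MNum R c m η D v) : ar (D.cM v 2) =
    (R - ar (preT R c D.τ2 D.φ2 D.g1 v 1) - ar (preT R c D.τ2 D.φ2 D.g1 v 2)) / 2 -
      D.qs ((v 0).re, Lt c (uu (preT R c D.τ2 D.φ2 D.g1 v))) := by
  have h1 : ar (D.cM v 2) = rst R (Ym D v) := ar_gau_two (Ym_two_ne h) (Ym_rst h).le
  rw [h1]
  unfold rst
  rw [Ym_ar0, Ym_ar1 h, Ym_ar2, Wm_re h]
  ring

theorem cM_qim (h : MNum R c m η D v) : qim (D.cM v) =
    D.qs ((v 0).re, Lt c (uu (preT R c D.τ2 D.φ2 D.g1 v))) := by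
  unfold qim
  rw [cM_ar1 h, cM_ar2 h]
  ring

theorem cM_lim (D : Dat R c m η) (h : MNum R c m η D v) :
    lim R (D.cM v) = ar (D.τ2 (v 2)) + ar (v 1) - c := by
  unfold lim
  rw [cM_ar0 h, cM_ar1 h, cM_ar2 h]
  have h1 := preT_diff (R := R) (c := c) (τ := D.τ2) (φ := D.φ2) D.og1 h.n1
  linarith

theorem aM_eq (h : MNum R c m η D v) : D.aM v =
    (v 0).im * (1 + deriv D.t (D.qs ((v 0).re, Lt c (uu (preT R c D.τ2 D.φ2 D.g1 v)))) *
      Lt c (uu (preT R c D.τ2 D.φ2 D.g1 v))) := Wm_im h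

/-- **Row MS.** -/
theorem rowMS : RowMS := by
  intro R c m η D H v hv
  have h := mnum D H hv
  have hx2 := h.pos2
  refine ⟨cM_contDiffAt h, cM_sympl h, ⟨?_, ?_⟩, ?_, ?_⟩
  · rw [cM_ar0 h]
    exact h.lt_c
  · rw [cM_ar0 h, cM_ar1 h, cM_ar2 h]
    linarith
  · rw [cM_lim D h]
    exact h.l_lt
  · exact ⟨_, h.Lpos, h.Lle, cM_qim h, by rw [cM_qim h]; exact aM_eq h⟩

end Vale.Agent.P209.H39
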